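import Crest.Agent.X262.Drop30.Defs
import Crest.Agent.X262.Vb37.Univ

/-!
# Row 262, DROP: the parameters of a glued pair (helper9)

`prmStmt : Drop30.PrmStmt io` and `ktStmt : Drop30.KtStmt io`.
-/

set_option autoImplicit false
set_option linter.unusedSectionVars false

noncomputable section

namespace Crest.Agent.X262.DropP

open Crest.Agent.X277 Crest.Agent.X277.BD Crest.Agent.X262.Vb Crest.Agent.X262.Node22 Polynomial
open Crest.Agent.X262.Drop30
open Crest.Agent.X262.Bub96 (hv)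

variable {J : Type} [Fintype J] [DecidableEq J] {io : J → Type} [∀ j, Fintype (io j)]
  [∀ j, DecidableEq (io j)]
variable {K : Type} [Field K] [Algebra ℂ K] {d m n : J → ℕ} {M M₁ M₂ : Type}

/-! ### the number of parameters -/

theorem card_marks [Fintype M] {a b c : M} (hab : a ≠ b) (hac : a ≠ c) (hbc : b ≠ c) :
    Nat.card {q : M // q ≠ a ∧ q ≠ b ∧ q ≠ c} + 3 = Fintype.card M := by
  classical
  have h3 : ({a, b, c} : Finset M).card = 3 :=
    Finset.card_eq_three.mpr ⟨a, b, c, hab, hac, hbc, rfl⟩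
  rw [Nat.card_eq_fintype_card, ← h3, add_comm,
    ← Finset.card_add_card_compl ({a, b, c} : Finset M), Fintype.card_subtype]
  congr 2; ext q; simp

theorem sum_mdim (i₀ : (j : J) → io j) (m : J → ℕ) :
    ∑ j, (Fintype.card (io j) * (m j + 1) - 1) = ∑ j, Fintype.card (io j) * m j + dimP io := by
  rw [dimP, ← Finset.sum_add_distrib]
  refine Finset.sum_congr rfl fun j _ => ?_
  have : 0 < Fintype.card (io j) := Fintype.card_pos_iff.2 ⟨i₀ j⟩
  rw [mul_add, mul_one]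
  omega

theorem card_Px [Fintype M₁] [Fintype M₂] (i₀ : (j : J) → io j) (m n : J → ℕ) {n₁ a b : M₁}
    {o n₂ e : M₂} (h₁ : n₁ ≠ a ∧ n₁ ≠ b ∧ a ≠ b) (h₂ : o ≠ n₂ ∧ o ≠ e ∧ n₂ ≠ e) :
    Nat.card (Px i₀ m n n₁ a b o n₂ e) + dimP io =
      mdim io m (Fintype.card M₁) + mdim io n (Fintype.card M₂) := by
  have e1 : ∀ m : J → ℕ, Nat.card (Σ j, io j × Fin (m j)) = ∑ j, Fintype.card (io j) * m j :=
    fun m => by simp [Nat.card_eq_fintype_card, Fintype.card_sigma]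
  have e2 : Nat.card (Σ j, {i : io j // i ≠ i₀ j}) = dimP io := by
    simp [Nat.card_eq_fintype_card, Fintype.card_sigma, dimP]
  have e3 := card_marks h₁.1 h₁.2.1 h₁.2.2
  have e4 := card_marks h₂.1 h₂.2.1 h₂.2.2
  rw [Nat.card_sum, Nat.card_sum, Nat.card_sum, Nat.card_sum, e1, e1, e2, mdim, mdim,
    sum_mdim i₀, sum_mdim i₀]
  omega

/-! ### the field of the parameters -/

section Key

variable {i₀ : (j : J) → io j} {n₁ a b : M₁} {o n₂ e : M₂} {f₁ f₂ : (j : J) → io j → K[X]}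
  {x₁ : M₁ → Option K} {x₂ : M₂ → Option K} {E : IntermediateField ℂ K}

theorem key₁ (hE : Set.range (prm i₀ m n n₁ a b o n₂ e f₁ f₂ x₁ x₂) ⊆ E)
    (hd : ∀ j i, (f₁ j i).natDegree ≤ m j) (j : J) (i : io j) (l : ℕ) :
    (f₁ j i).coeff l / (f₁ j (i₀ j)).coeff (m j) ∈ E := by
  rcases lt_trichotomy l (m j) with hl | rfl | hl
  · exact hE ⟨.inl ⟨j, i, ⟨l, hl⟩⟩, rfl⟩
  · by_cases hi : i = i₀ j
    · rw [hi]
      by_cases h0 : (f₁ j (i₀ j)).coeff (m j) = 0
      · rw [h0, div_zero]; exact E.zero_mem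
      · rw [div_self h0]; exact E.one_mem
    · exact hE ⟨.inr (.inr (.inl ⟨j, i, hi⟩)), rfl⟩
  · rw [coeff_eq_zero_of_natDegree_lt ((hd j i).trans_lt hl), zero_div]
    exact E.zero_mem

theorem key₂ (hE : Set.range (prm i₀ m n n₁ a b o n₂ e f₁ f₂ x₁ x₂) ⊆ E)
    (hd₁ : ∀ j i, (f₁ j i).natDegree ≤ m j) (hd : ∀ j i, (f₂ j i).natDegree ≤ n j) {c : J → K}
    (hc : ∀ j, c j ≠ 0) (hp : ∀ j i, (f₁ j i).coeff (m j) = c j * (f₂ j i).coeff 0) (j : J)
    (i : io j) (l : ℕ) : (f₂ j i).coeff l / (f₂ j (i₀ j)).coeff 0 ∈ E := by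
  rcases l with _ | l
  · have h := key₁ hE hd₁ j i (m j)
    rwa [hp, hp, mul_div_mul_left _ _ (hc j)] at h
  · by_cases hl : l < n j
    · exact hE ⟨.inr (.inl ⟨j, i, ⟨l, hl⟩⟩), rfl⟩
    · rw [coeff_eq_zero_of_natDegree_lt ((hd j i).trans_lt (by omega)), zero_div]
      exact E.zero_mem

theorem pt_mem {x : M → Option K} {p q r : M} (hp : x p = none ∨ x p = some 0 ∨ x p = some 1)
    (hq : x q = none ∨ x q = some 0 ∨ x q = some 1) (hr : x r = none ∨ x r = some 0 ∨ x r = some 1)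
    (h : ∀ s, s ≠ p ∧ s ≠ q ∧ s ≠ r → (x s).getD 0 ∈ E) (s : M) (t : K) (hs : x s = some t) :
    t ∈ E := by
  have key : ∀ u, (x u = none ∨ x u = some 0 ∨ x u = some 1) → s = u → t ∈ E := by
    rintro u (hu | hu | hu) rfl <;> rw [hu] at hs <;> cases hs
    exacts [E.zero_mem, E.one_mem]
  by_cases h1 : s = p
  · exact key p hp h1
  by_cases h2 : s = q
  · exact key q hq h2
  by_cases h3 : s = r
  · exact key r hr h3
  simpa [hs] using h s ⟨h1, h2, h3⟩

theorem rat_sub {f : (j : J) → io j → K[X]} {s : J → K} (hs : ∀ j, s j ≠ 0)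
    (h : ∀ j i l, (f j i).coeff l / s j ∈ E) : rat f ⊆ E := by
  rintro _ ⟨j, i, i', l, l', rfl⟩
  rw [← div_div_div_cancel_right₀ (hs j)]
  exact E.div_mem (h j i l) (h j i' l')

theorem getD_mem {x : Option K} (h : ∀ t, x = some t → t ∈ E) : x.getD 0 ∈ E := by
  cases x with
  | none => exact E.zero_mem
  | some t => exact h t rfl

theorem prm_sub (h₁ : rat f₁ ⊆ E) (h₂ : rat f₂ ⊆ E) (hx₁ : ∀ q t, x₁ q = some t → t ∈ E)
    (hx₂ : ∀ q t, x₂ q = some t → t ∈ E) :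
    Set.range (prm i₀ m n n₁ a b o n₂ e f₁ f₂ x₁ x₂) ⊆ E := by
  rintro _ ⟨p | p | p | q | q, rfl⟩
  · exact h₁ ⟨_, _, _, _, _, rfl⟩
  · exact h₂ ⟨_, _, _, _, _, rfl⟩
  · exact h₁ ⟨_, _, _, _, _, rfl⟩
  · exact getD_mem (hx₁ _)
  · exact getD_mem (hx₂ _)

end Key

/-- descent of a datum with a prescribed normalisation -/
theorem desc (η : Dat io d M K) (E : IntermediateField ℂ K) {s : J → K} (hs : ∀ j, s j ≠ 0)
    (h : ∀ j i l, (η.f j i).coeff l / s j ∈ E) (hx : ∀ q t, η.x q = some t → t ∈ E) :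
    ∃ ζ : Dat io d M E, (∀ j i, (ζ.map E.val).f j i = C (s j)⁻¹ * η.f j i) ∧
      (ζ.map E.val).x = η.x := by
  have hf : ∀ j i, ∃ p : E[X], p.map (E.val : E →+* K) = C (s j)⁻¹ * η.f j i := by
    intro j i
    rw [← mem_lifts, lifts_iff_coeff_lifts]
    intro l
    exact ⟨⟨_, h j i l⟩, by simp [div_eq_inv_mul]⟩
  choose f hf using hf
  have hp : ∀ q, ∃ t : Option E, t.map E.val = η.x q := by
    intro q
    rcases h : η.x q with _ | t
    · exact ⟨none, rfl⟩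
    · exact ⟨some ⟨t, hx q t h⟩, rfl⟩
  choose x hx using hp
  have hcp : Cp d f := by
    let α := algebraMap K (AlgebraicClosure K)
    refine Vb37.cp_of_closed (α.comp (E.val : E →+* K)) (fun j i => ?_) fun j t => ?_
    · rw [← natDegree_map (E.val : E →+* K), hf]
      exact (natDegree_C_mul_le _ _).trans (η.cp.1 j i)
    · obtain ⟨i, hi⟩ := Vb37.cp_hv (η.cp.map α) j t
      refine ⟨i, ?_⟩
      rw [← Polynomial.map_map, hf, Polynomial.map_mul, map_C, Vb37.hv_C_mul]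
      exact mul_ne_zero ((_root_.map_ne_zero α).2 (inv_ne_zero (hs j))) hi
  exact ⟨⟨f, x, hcp⟩, hf, _root_.funext hx⟩

theorem nml_of_map {k : Type} [Field k] [Algebra ℂ k] {α : k →ₐ[ℂ] K} {ζ : Dat io d M k}
    {η : Dat io d M K} (h : (ζ.map α).x = η.x) {p q r : M} (hn : Nml η p q r) : Nml ζ p q r := by
  have hi : Function.Injective (Option.map α) := Option.map_injective (α : k →+* K).injective
  have e : ∀ s, (ζ.x s).map α = η.x s := fun s => congrFun h s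
  exact ⟨hi (by rw [e, hn.1]; rfl), hi (by rw [e, hn.2.1]; simp), hi (by rw [e, hn.2.2]; simp)⟩

theorem prmStmt : PrmStmt io := by
  intro m n M₁ M₂ K _ _ _ _ η₁ η₂ n₁ a b o n₂ e i₀ h₁ h₂ hpar h0
  have hcard := card_Px i₀ m n (Vb37.Nm3.ne h₁) (Vb37.Nm3.ne h₂)
  refine ⟨hcard, fun k hk => ?_⟩
  obtain ⟨c, hc, hp⟩ := hpar
  have hp' : ∀ j i, (η₁.f j i).coeff (m j) = c j * (η₂.f j i).coeff 0 := fun j i => by
    rw [coeff_zero_eq_eval_zero]
    exact congrFun (congrFun hp j) i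
  have h0' : ∀ j, (η₂.f j (i₀ j)).coeff 0 ≠ 0 := fun j h => h0 j (by rw [hp', h, mul_zero])
  have hE : Set.range (prm i₀ m n n₁ a b o n₂ e η₁.f η₂.f η₁.x η₂.x) ⊆ k :=
    hk ▸ IntermediateField.subset_adjoin _ _
  obtain ⟨ζ₁, f1, x1⟩ := desc η₁ k h0 (key₁ hE η₁.cp.1)
    (pt_mem (.inl h₁.1) (.inr (.inl h₁.2.1)) (.inr (.inr h₁.2.2))
      fun s hs => hE ⟨.inr (.inr (.inr (.inl ⟨s, hs⟩))), rfl⟩)
  obtain ⟨ζ₂, f2, x2⟩ := desc η₂ k h0' (key₂ hE η₁.cp.1 η₂.cp.1 hc hp')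
    (pt_mem (.inl h₂.1) (.inr (.inl h₂.2.1)) (.inr (.inr h₂.2.2))
      fun s hs => hE ⟨.inr (.inr (.inr (.inr ⟨s, hs⟩))), rfl⟩)
  have hpt : ζ₁.pt none = ζ₂.pt (some 0) := by
    funext j i
    refine (k.val : k →+* K).injective ?_
    have e1 := congrArg (fun p => coeff p (m j)) (f1 j i)
    have e2 := congrArg (fun p => coeff p 0) (f2 j i)
    simp only [Dat.map, coeff_map, coeff_C_mul] at e1 e2
    change (k.val : k →+* K) ((ζ₁.f j i).coeff (m j)) = (k.val : k →+* K) ((ζ₂.f j i).eval 0)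
    rw [← coeff_zero_eq_eval_zero, e1, e2, hp', hp']
    have := hc j
    have := h0' j
    field_simp
  refine ⟨ζ₁, ζ₂, f1, f2, x1, x2, hpt, fun hI => ⟨nml_of_map x1 h₁, nml_of_map x2 h₂,
    ⟨fun _ => 1, fun _ => one_ne_zero, by rw [hpt]; funext j i; simp [scl]⟩, ?_, ?_⟩⟩
  · have c1 : k.val '' ζ₁.crd = η₁.crd := by
      rw [← Vb37.crd_map]
      exact Vb37.crd_eq x1 (fun j => inv_ne_zero (h0 j)) f1
    have c2 : k.val '' ζ₂.crd = η₂.crd := by
      rw [← Vb37.crd_map]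
      exact Vb37.crd_eq x2 (fun j => inv_ne_zero (h0' j)) f2
    have hle : k ≤ (IntermediateField.adjoin ℂ (ζ₁.crd ∪ ζ₂.crd)).map k.val := by
      rw [IntermediateField.adjoin_map, Set.image_union, c1, c2]
      refine hk.le.trans (IntermediateField.adjoin_le_iff.2 (prm_sub ?_ ?_ ?_ ?_))
      · exact fun t ht => IntermediateField.subset_adjoin _ _ (Or.inl (Or.inl ht))
      · exact fun t ht => IntermediateField.subset_adjoin _ _ (Or.inr (Or.inl ht))
      · exact fun q t ht => IntermediateField.subset_adjoin _ _ (Or.inl (Or.inr ⟨q, ht⟩))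
      · exact fun q t ht => IntermediateField.subset_adjoin _ _ (Or.inr (Or.inr ⟨q, ht⟩))
    rw [eq_top_iff]
    intro t _
    obtain ⟨u, hu, e⟩ := hle t.2
    obtain rfl : u = t := Subtype.ext e
    exact hu
  · subst hk
    rw [← hcard, Nat.cast_add]
    congr 1
    let R := MvPolynomial (Px i₀ m n n₁ a b o n₂ e) ℂ
    have h1 := trdeg_add_eq ℂ R (A := FractionRing R)
    have := IsLocalization.isAlgebraic (FractionRing R) (nonZeroDivisors R)
    rw [MvPolynomial.trdeg_of_isDomain, trdeg_eq_zero, add_zero] at h1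
    rw [← hI.aevalEquivField.trdeg_eq, ← h1, Nat.card, Cardinal.cast_toNat_of_lt_aleph0
      (Cardinal.lt_aleph0_of_finite _), Cardinal.lift_id]

/-! ### the field of the chart -/

theorem coeff_divByMonic_X_pow (p : K[X]) (m l : ℕ) : (p /ₘ X ^ m).coeff l = p.coeff (l + m) := by
  have hm : (X ^ m : K[X]).Monic := monic_X_pow m
  conv_rhs => rw [← modByMonic_add_div p (X ^ m)]
  rw [coeff_add, coeff_X_pow_mul, coeff_eq_zero_of_degree_lt (p := p %ₘ X ^ m), zero_add]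
  refine (degree_modByMonic_lt p hm).trans_le ?_
  rw [degree_X_pow]
  exact_mod_cast Nat.le_add_left m l

theorem coeff_sc (A ρ : K) (f : K[X]) (l : ℕ) :
    (sc A ρ f).coeff l = (sc A 1 f).coeff l * ρ ^ l := by
  rw [← comp_C_mul_X_coeff, sc_apply, sc_apply, comp_assoc]
  simp

theorem coeff_g1 (A ρ : K) (m : ℕ) (f : K[X]) (l : ℕ) :
    (g1 A ρ m f).coeff l = if l ≤ m then (sc A ρ f).coeff l / ρ ^ m else 0 := by
  simp [g1, coeff_monomial]

theorem natDegree_g1 (A ρ : K) (m : ℕ) (f : K[X]) : (g1 A ρ m f).natDegree ≤ m :=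
  natDegree_le_iff_coeff_eq_zero.2 fun l hl => by rw [coeff_g1, if_neg (by omega)]

theorem coeff_g2 (A ρ : K) (m : ℕ) (f : K[X]) (l : ℕ) :
    (g2 A ρ m f).coeff l = (sc A ρ f).coeff (l + m) / ρ ^ m := by
  rw [g2, coeff_C_mul, coeff_divByMonic_X_pow, div_eq_inv_mul]

theorem natDegree_g2 (A : K) {ρ : K} (hρ : ρ ≠ 0) {m n : ℕ} {f : K[X]} (h : f.natDegree ≤ m + n) :
    (g2 A ρ m f).natDegree ≤ n :=
  natDegree_le_iff_coeff_eq_zero.2 fun l hl => by
    rw [coeff_g2, coeff_eq_zero_of_natDegree_lt (by rw [natDegree_sc hρ]; omega), zero_div]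

theorem g1_top (A : K) {ρ ρ' : K} (hρ : ρ ≠ 0) (hρ' : ρ' ≠ 0) (m : ℕ) (f : K[X]) :
    (g1 A ρ m f).coeff m = (g2 A ρ' m f).coeff 0 := by
  rw [coeff_g1, if_pos le_rfl, coeff_g2, zero_add, coeff_sc A ρ, coeff_sc A ρ',
    mul_div_cancel_right₀ _ (pow_ne_zero _ hρ), mul_div_cancel_right₀ _ (pow_ne_zero _ hρ')]

theorem ktStmt : KtStmt io := by
  intro d m n M K _ _ ξ o a b e A R B S h i₀ hs h0
  have hρ : B - algebraMap ℂ K A ≠ 0 := sub_ne_zero.2 hs.ab
  have hρ' : algebraMap ℂ K (R - A) ≠ 0 := (_root_.map_ne_zero _).2 (sub_ne_zero.2 hs.ae)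
  apply le_antisymm
  · set E := IntermediateField.adjoin ℂ (Set.range (cprm ξ o a b e A R B h i₀))
    have hE : Set.range (cprm ξ o a b e A R B h i₀) ⊆ E := IntermediateField.subset_adjoin _ _
    have d1 := fun j i => natDegree_g1 (algebraMap ℂ K A) (B - algebraMap ℂ K A) (m j) (ξ.f j i)
    have d2 := fun j i => natDegree_g2 (algebraMap ℂ K A) hρ' (f := ξ.f j i) (m := m j) (n := n j)
      (by rw [h.add]; exact ξ.cp.1 j i)
    have hp := fun j i => (g1_top (algebraMap ℂ K A) hρ hρ' (m j) (ξ.f j i)).trans (one_mul _).symm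
    refine IntermediateField.adjoin_le_iff.2 (Set.union_subset (Set.union_subset
      (Set.union_subset (rat_sub h0 (key₁ hE d1)) (rat_sub (fun j => ?_)
        (key₂ hE d1 d2 (fun _ => one_ne_zero) hp))) ?_) ?_)
    · rw [← g1_top _ hρ hρ']
      exact h0 j
    · rintro t ⟨i, hi, ht⟩
      refine pt_mem (x := fun q : Mi S => q.elim none fun i =>
        nx (algebraMap ℂ K A) (B - algebraMap ℂ K A) (ξ.x i.1)) (p := none) (q := some ⟨a, h.a⟩)
        (r := some ⟨b, h.b⟩) (.inl rfl) (.inr (.inl ?_)) (.inr (.inr ?_))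
        (fun s hs => hE ⟨.inr (.inr (.inr (.inl ⟨s, hs⟩))), rfl⟩) (some ⟨i, hi⟩) t ht
      · simp [nx, hs.a]
      · simp [nx, hs.b, div_self hρ]
    · rintro t ⟨i, hi, ht⟩
      refine pt_mem (x := fun q : Mo S => q.elim (some 0) fun i =>
        nx (algebraMap ℂ K A) (algebraMap ℂ K (R - A)) (ξ.x i.1)) (p := some ⟨o, h.o⟩) (q := none)
        (r := some ⟨e, h.e⟩) (.inl ?_) (.inr (.inl rfl)) (.inr (.inr ?_))
        (fun s hs => hE ⟨.inr (.inr (.inr (.inr ⟨s, hs⟩))), rfl⟩) (some ⟨i, hi⟩) t ht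
      · simp [nx, hs.o]
      · simp only [nx, Option.elim_some, hs.e, Option.map_some]
        rw [← map_sub, div_self hρ']
  · refine IntermediateField.adjoin_le_iff.2 (prm_sub ?_ ?_ ?_ ?_)
    · exact fun t ht => IntermediateField.subset_adjoin _ _ (Or.inl (Or.inl (Or.inl ht)))
    · exact fun t ht => IntermediateField.subset_adjoin _ _ (Or.inl (Or.inl (Or.inr ht)))
    · rintro (_ | q) t ht
      · cases ht
      · exact IntermediateField.subset_adjoin _ _ (Or.inl (Or.inr ⟨q.1, q.2, ht⟩))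
    · rintro (_ | q) t ht
      · cases ht
        exact zero_mem _
      · exact IntermediateField.subset_adjoin _ _ (Or.inr ⟨q.1, q.2, ht⟩)

end Crest.Agent.X262.DropP
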